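import Vale.Agent.P354SM.NDefs

/-!
The metric in the chart of the rays of Kerr: exact statements of two pieces of KCH.
-/

open scoped ContDiff
open Set Filter Topology

noncomputable section

namespace Vale.Agent.P354NE

open Vale.Agent.P354n (R4)
open Vale.Agent.P354XE (Tw pb gin rd)
open Vale.Agent.P354XM (sh)
open Vale.Agent.P354YQ (SA JB JD)
open Vale.Agent.P354SA
open Vale.Agent.P354SM

/-- MET1 (from RZS, PBG): the bounds after a change Λ of the parameter along the rays. -/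
def MET1 : Prop :=
  ∀ M a r1 r2 : ℝ, ∀ B ≥ 1, 0 < r1 → ∃ C ≥ 1,
    ∀ p0 k ε1 C0 s1 r H b σ Ψ S x (Λ Θ : R4 → R4) c φ (z : R4) g,
      Ref p0 k ε1 C0 s1 r H b σ Ψ S x → |x.1.1 - M| ≤ 1 → |x.1.2.1 - a| ≤ 1 → ‖z.2.2‖ < 9 →
      (∀ᶠ y in 𝓝 z, SA Λ y ∧ (Λ y).2 = y.2 ∧ 0 < (fderiv ℝ Λ y e0).1) →
      Θ = (fun y => sh c φ (Ψ x (Λ y))) → g = pb Θ (gin x.1.1 x.1.2.1) → JD 4 Θ z B →
      (∀ v, ‖v‖ ≤ B * ‖fderiv ℝ Θ z v‖) → rd (Θ z) ∈ Icc r1 r2 →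
      Nul g z ∧ C⁻¹ ≤ Om g z ∧ C⁻¹ ≤ dg g z ∧ C⁻¹ ≤ gm g 0 0 z ∧ ∀ rc ∈ Icc 1 B, Shp C rc g z

/-- MET2: the inner part, where the change of the parameter is the shear. -/
def MET2 : Prop :=
  ∀ p0 k ε1 C0 s1 r H b σ Ψ S x (Λ : R4 → R4) c φ sc (z : R4) g,
    Ref p0 k ε1 C0 s1 r H b σ Ψ S x → 0 ≤ C0 → ‖z.2.2‖ < 9 →
    (∀ᶠ y in 𝓝 z, Λ y = (y.1 - y.2.1 - sc, y.2)) →
    g = pb (fun y => sh c φ (Ψ x (Λ y))) (gin x.1.1 x.1.2.1) →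
    (z.1 - z.2.1 - sc ≤ 0 → a0 g z = 0) ∧
      (z.1 - z.2.1 - sc < 0 → Shp C0 (jb (z.1 - z.2.1 - sc)) g z)

end Vale.Agent.P354NE
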