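import Vale.Agent.P354NE.Tool
import Vale.Agent.P354RF.Kt
import Vale.Agent.P354RF.Met
import Vale.Agent.P354RF.Ref
import Vale.Agent.P354YI.Pbg
import Vale.Agent.P354TS.Ex0

/-!
KCH: the chart of the rays of Kerr from the top slice to the radius r2.
-/

set_option maxSynthPendingDepth 3

open scoped ContDiff
open Set Filter Topology Function Real

noncomputable section

namespace Vale.Agent.P354NE

open Vale.Agent.P354n (R4)
open Vale.Agent.P354H (X3)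
open Vale.Agent.P354I (P3)
open Vale.Agent.P354XE (Par rd)
open Vale.Agent.P354XA (hor)
open Vale.Agent.P354XM (sh rd_sh sh_sh sh_zero)
open Vale.Agent.P354RF (met1 met2 rr_low top_eq pole_q ur_q exp_mem)
open Vale.Agent.P354YQ (SA JB JD)
open Vale.Agent.P354YM (Jd pp)
open Vale.Agent.P354SA
open Vale.Agent.P354SM

theorem near_mono {q : Par} {M a ε ε' : ℝ} (h : q.Near M a ε) (e : ε ≤ ε') : q.Near M a ε' :=
  ⟨h.1.trans_le e, h.2.1.trans_le e, h.2.2.1.trans_le e, h.2.2.2.1,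
    fun i j => (h.2.2.2.2 i j).trans_le e⟩

theorem sh_inj (c φ : ℝ) : Injective (sh c φ) := LeftInverse.injective (g := sh (-c) (-φ))
  fun x => by rw [sh_sh, neg_add_cancel, neg_add_cancel, sh_zero, id]

theorem jb_mem {x L : ℝ} (h0 : 0 ≤ x) (h : x ≤ L) : jb x ∈ Icc 1 (L + 1) :=
  ⟨one_le_sqrt.2 (by nlinarith), sqrt_le_iff.2 ⟨by linarith, by nlinarith⟩⟩

theorem times {R t A c c0 l T0 : ℝ} (ht : 0 ≤ t) (h0 : c0 ∈ Icc (1 / 2 : ℝ) 2) (hA : 0 ≤ A)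
    (hl : l ∈ Icc (9 / 10 : ℝ) (11 / 10)) (hR : 40 * (|c| + |T0| + 2 * t + A) ≤ R) :
    T0 + 2 * t + l * (c + c0 * (R + t)) ∈ Icc (2 / 5 * R) (4 * R) ∧
      ∀ x, |x - (c + c0 * (R + t))| ≤ A → x ∈ Icc (2 / 5 * R) (3 * R) := by
  have a1 := abs_nonneg c
  have a2 := abs_nonneg T0
  have r : 0 ≤ R + t := by linarith
  have b1 := mul_le_mul_of_nonneg_right h0.1 r
  have b2 := mul_le_mul_of_nonneg_right h0.2 r
  have c1 := neg_abs_le c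
  have c2 := le_abs_self c
  have p : 0 ≤ c + c0 * (R + t) := by linarith
  exact ⟨⟨by linarith [mul_le_mul_of_nonneg_right hl.1 p, neg_abs_le T0],
    by linarith [mul_le_mul_of_nonneg_right hl.2 p, le_abs_self T0]⟩,
    fun x k => ⟨by linarith [(abs_le.1 k).1], by linarith [(abs_le.1 k).2]⟩⟩

/-- One end and one chart of the sphere. -/
theorem one {j : Jd} (hj : j.Is) {b σ ε1 C0 s1 r1 Ψ S}
    (hR : Rf j.M j.a j.k ε1 C0 s1 r1 j.H b σ Ψ S) : ∃ C1 ≥ 1, ∃ r0', ∀ r2 ≥ r0', ∃ C2 ≥ 1,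
    ∀ (k : ℕ), ∀ t ≥ 0, ∀ rr > 0, (j.t t).Rad rr → ∃ B ≥ 1, ∃ ρ ∈ Ioc (0 : ℝ) (1 / 2),
      ∃ ε > 0, ∀ q q' : Par, q.Near j.M j.a ε → q'.Near j.M j.a ε → ∀ c φ, ∃ R1, ∀ R ≥ R1,
        ∃ T s2 Θ Y, Kc k C1 C2 B (r1 + 2) rr r2 s2 (2 * t) ρ T R q q' σ
          (Jt (j.t t) q c φ b σ R) Θ Y := by
  obtain ⟨C1, c1, r0, εx, ex, hX⟩ := P354TS.ex0 _ _ _ _ _ _ _ _ _ _ _ _ hR
  obtain ⟨εe, ee, hJ⟩ := P354YI.etj _ _ hR.1
  obtain ⟨η, ⟨η0, η1⟩, K, hK, ok, mK⟩ := kset hR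
  obtain ⟨T0, K0, Λ, hL, hs, hB⟩ := lam_ex hK ok
  have hA := all_bd hK ok hL hB
  have c0 := hR.2.2.1
  have s0 := hR.2.2.2.1
  refine ⟨C1, c1, max (max r0 (3 * j.M + C1)) (r1 + 4 + 2 * |K0|), fun r2 h2 => ?_⟩
  obtain ⟨⟨h3, h4⟩, h5⟩ := (max_le_iff.1 h2).imp_left max_le_iff.1
  have k1 := le_abs_self K0
  have k2 := abs_nonneg K0
  obtain ⟨K2, hs⟩ := hs (r2 - r1) (by linarith)
  have k3 := abs_nonneg K2
  obtain ⟨B9, b9, h9⟩ := hA 9 (|K2| + 2)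
  obtain ⟨Cm, cm, hm⟩ := met1 j.M j.a B9⁻¹ (r2 + C1) (B9 + |K2| + 4) (by linarith) (by positivity)
  obtain ⟨Ce, ce, he⟩ := hJ C1 (r2 + C1) 9
  have p9 : 0 ≤ (9 : ℕ).factorial * Ce * (12 * B9) ^ 9 := by positivity
  refine ⟨C0 + Cm + |K2| + (9 : ℕ).factorial * Ce * (12 * B9) ^ 9, by linarith,
    fun k t t0 rr r0 hr => ?_⟩
  obtain ⟨ρ, hρ, e, ⟨e0, -⟩, lo⟩ := rr_low hR t0 hj.hG.pos0.1.le hr
  obtain ⟨Bk, bk, hk⟩ := hA (k + 4) (|K2| + 2 + 2 * t)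
  obtain ⟨Cn, cn, hn⟩ := met1 j.M j.a rr (r2 + C1) Bk bk r0
  obtain ⟨Cf, cf, hf⟩ := hJ C1 (r2 + C1) k
  have pk : 0 ≤ k.factorial * Cf * (12 * Bk) ^ k := by positivity
  obtain ⟨B, b1, b2, b3, b4⟩ : ∃ B, Bk ≤ B ∧ Cn ≤ B ∧ |K2| + 2 * t ≤ B ∧
      k.factorial * Cf * (12 * Bk) ^ k ≤ B :=
    ⟨Bk + Cn + (|K2| + 2 * t) + k.factorial * Cf * (12 * Bk) ^ k, by linarith, by linarith,
      by linarith, by linarith⟩
  obtain ⟨ε, ε0, a1, a2, a3, a4, a5⟩ : ∃ ε > 0, ε ≤ εx ∧ ε ≤ εe ∧ ε ≤ η ∧ ε ≤ e ∧ ε ≤ 1 / (3 * C0) :=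
    ⟨min εx (min εe (min η (min e (1 / (3 * C0))))), by positivity, by simp, by simp, by simp,
      by simp, by simp⟩
  refine ⟨B, bk.trans b1, ρ, hρ, ε, ε0, fun q q' n n' c φ => ?_⟩
  have xm := exp_mem hj.hG.pos0.1.le t0
  obtain ⟨m, ml⟩ := mK q q' (near_mono n a3) (near_mono n' a3) _ xm
  have o := ok _ m
  have f : Ref (j.M, j.a, j.M) j.k ε1 C0 s1 r1 j.H b σ Ψ S (pp j.M q, exp (-j.k * t)) := o.1.1
  obtain ⟨c', mc, om, top⟩ := top_eq f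
  refine ⟨40 * (|c| + |T0| + 2 * t + Bk), fun R hR' => ?_⟩
  obtain ⟨t1, t2⟩ := times t0 mc (by linarith) ml hR'
  have L := (hL _ m).sft (2 * t)
  replace h9 := h9 _ m (c + c' * (R + t)) (φ + om * (R + t)) (2 * t)
  replace hk := hk _ m (c + c' * (R + t)) (φ + om * (R + t)) (2 * t)
  replace hs := hs _ m
  replace top := top R c φ
  replace lo := lo (pp j.M q) (max_le (n.1.le.trans a4) (max_le (n.2.1.le.trans a4)
    ((dist_self _).trans_le e0.le)))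
  have hX' := fun Λ => hX r2 h3 q q' (near_mono n a1) (near_mono n' a1) _ xm (c + c' * (R + t))
    (φ + om * (R + t)) (T0 + 2 * t) _ _ Λ rfl rfl
  have tu' : ∀ p, tt T0 ((pp j.M q, exp (-j.k * t)), q.l / q'.l, q'.M, q'.a) p + 2 * t =
    tu q q' (T0 + 2 * t) p := fun p => by simp only [tt, tu]; ring
  replace hs : tu q q' (T0 + 2 * t) (Ψ (pp j.M q, exp (-j.k * t)) (s1 + 2 * (r2 - r1), 0)) - 2 * t ∈
      Icc (r2 - r1 - 1 - K0) |K2| := by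
    rw [← tu', add_sub_cancel_right]; exact ⟨hs.1, hs.2.trans (le_abs_self _)⟩
  have out := fun z hz k => (tu' _).symm.trans (L.out z hz k)
  have mt := fun z g => met2 _ _ _ _ _ _ _ _ _ _ _ _
    (fun y => Λ ((pp j.M q, exp (-j.k * t)), q.l / q'.l, q'.M, q'.a) (y - (2 * t, 0)))
    (c + c' * (R + t)) (φ + om * (R + t)) (2 * t) z g f (by linarith)
  unfold Tc at h9 hk
  generalize c + c' * (R + t) = c1' at *
  generalize φ + om * (R + t) = φ1 at *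
  obtain ⟨Lz, eL⟩ : ∃ Lz : R4 → R4, Lz = fun y =>
    Λ ((pp j.M q, exp (-j.k * t)), q.l / q'.l, q'.M, q'.a) (y - (2 * t, 0)) := ⟨_, rfl⟩
  simp only [← congrFun eL] at L h9 hk out mt
  generalize tu q q' (T0 + 2 * t) (Ψ (pp j.M q, exp (-j.k * t)) (s1 + 2 * (r2 - r1), 0)) = s2 at *
  obtain ⟨s3, s4⟩ := hs
  obtain ⟨Y, ez, eY, hY⟩ := hX' Lz fun z hz => by
    have w : z.2 ∈ Wo := ⟨hz.1, hz.2.1⟩
    have u := L.far z w (by linarith [(abs_lt.1 hz.2.2).1])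
    exact ⟨(L.sa z w).1, (L.sa z w).2.1, by linarith, out z w u⟩
  obtain ⟨Θ, eΘ⟩ : ∃ Θ : R4 → R4, Θ = fun y => sh c1' φ1 (Ψ (pp j.M q, exp (-j.k * t)) (Lz y)) :=
    ⟨_, rfl⟩
  have rΘ : ∀ z, rd (Θ z) = rd (Ψ (pp j.M q, exp (-j.k * t)) (Lz z)) := fun z => by
    rw [eΘ, rd_sh]
  have eq : ∀ z : R4, z.2 ∈ Wo → Lz z = ((Lz z).1, z.2) := fun z w => Prod.ext rfl (L.sa z w).2.1
  have rY : ∀ z, (Y z).1 = rd (Θ z) := fun z => by
    rw [eΘ]; exact congrArg Prod.fst (congrFun eY z)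
  have rg : ∀ z ∈ Ub ρ s2, rd (Θ z) ∈ Ioc rr (r2 + C1) := fun z hz => by
    have w : z.2 ∈ Wo := ⟨hz.1, hz.2.1⟩
    constructor
    · rw [rΘ]
      refine lo _ ((L.sa z w).2.1.symm ▸ Wo_sub w) (le_of_eq_of_le ?_
        (L.mono _ w hz.2.2.1.le))
      simp only [L.inn (z.2.1 - ρ, z.2) w (by simp only; linarith [hρ.1])]
      ring
    · have u := (abs_le.1 (hY (max z.1 s2, z.2) ⟨hz.1, hz.2.1, abs_lt.2
        ⟨by linarith [le_max_right z.1 s2], sub_lt_iff_lt_add'.2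
          (max_lt hz.2.2.2 (by linarith))⟩⟩).1).2
      rw [rY, rΘ, eq (max z.1 s2, z.2) w] at u
      rw [rΘ, eq z w]
      linarith [rd_mono f w.2.le (L.mono _ w (le_max_left z.1 s2))]
  have bk' := fun z (hz : z ∈ Ub ρ s2) => hk z ⟨hz.1, hz.2.1⟩ (abs_le.2
    ⟨by linarith [hz.2.2.1, (abs_lt.1 hz.1).1, hρ.2], by linarith [hz.2.2.2]⟩) Θ eΘ
  have b9' := fun z (hz : z ∈ Ub ρ s2) (u : 2 * t - 1 ≤ z.1) => h9 z ⟨hz.1, hz.2.1⟩ (abs_le.2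
    ⟨by linarith, by linarith [hz.2.2.2]⟩) Θ eΘ
  have nM : |q.M - j.M| ≤ 1 ∧ |q.a - j.a| ≤ 1 := ⟨by linarith [n.1], by linarith [n.2.1]⟩
  refine ⟨_, s2, Θ, Y, ⟨t1, ⟨by linarith, by linarith⟩, by linarith,
    abs_le.2 ⟨by linarith, by linarith⟩⟩, fun z hz z' hz' u => ?_, fun z hz => ?_,
    fun z hz g eg => ?_, ez⟩
  · have w : z.2 ∈ Wo := ⟨hz.1, hz.2.1⟩
    have w' : z'.2 ∈ Wo := ⟨hz'.1, hz'.2.1⟩
    rw [eΘ] at u
    exact L.inj w w' (f.inj (show _ ≤ _ from (L.sa z w).2.1.symm ▸ w.2.le)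
      (show _ ≤ _ from (L.sa z' w').2.1.symm ▸ w'.2.le) (sh_inj _ _ u))
  · have w : z.2 ∈ Wo := ⟨hz.1, hz.2.1⟩
    obtain ⟨d1, d2, d3, -, d5⟩ := bk' z hz
    refine ⟨(d1.ord (by omega)).mono b1, fun v => (d2 v).trans (mul_le_mul_of_nonneg_right b1
      (norm_nonneg _)), rg z hz, t2 _ d5, d3.trans (neg_le_neg (inv_anti₀ (by linarith) b1)),
      fun u => ?_, fun u => ?_, fun u => ?_, fun u => ?_⟩
    · rw [eΘ]
      exact pole_q f o.1.2 n (by linarith) (by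
        rw [mul_right_comm, mul_comm]; exact (le_div_iff₀ (by linarith)).1 a5) _ _
        ((L.sa z w).2.1.symm ▸ u)
    · have v : s1 + 2 ≤ (Lz z).1 := by_contra fun v => by
        have := rd_mono f w.2.le (not_le.1 v).le
        simp only [← eq z w, ← rΘ, f.rad (s1 + 2, z.2) w.2.le (by simp)] at this
        linarith
      rw [ur_q n.2.2.2.1 n'.2.2.2.1, ← out z w v, rΘ, eΘ]
      simp only [tu, sh]
      ring
    · rw [top, eΘ]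
      simp only [L.inn z w (by linarith), u, sub_self, zero_sub, neg_mul]
    · obtain ⟨y1, y2, y3⟩ := hY z ⟨hz.1, hz.2.1, abs_lt.2 ⟨by linarith, by linarith [hz.2.2.2]⟩⟩
      have y4 : (Y z).1 ∈ Icc (3 * j.M) (r2 + C1) :=
        ⟨by linarith [(abs_le.1 y1).1], by linarith [(abs_le.1 y1).2]⟩
      rw [← congrFun eΘ z] at y3
      simp only [← congrFun eΘ] at eY
      have a := n'.1.le.trans a2
      have a' := n'.2.1.le.trans a2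
      have j9 := zq_jd n n' (by linarith) (b9' z hz (by linarith)).1 b9 (by linarith) y3
        (he _ _ _ _ _ a a' y4 y2)
      have jk := zq_jd n n' (by linarith) (d1.ord (Nat.le_add_right k 4)) bk (by linarith) y3
        (hf _ _ _ _ _ a a' y4 y2)
      rw [← eY] at j9 jk
      exact ⟨y3, j9.mono (by linarith), jk.mono b4⟩
  · have w : z.2 ∈ Wo := ⟨hz.1, hz.2.1⟩
    obtain ⟨d1, d2, -⟩ := bk' z hz
    have ev := (Wo_ev w).mono L.sa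
    obtain ⟨g1, g2, g3, g4, -⟩ := hn _ _ _ _ _ _ _ _ _ _ _ _ Lz Θ _ _ z g f nM.1 nM.2 w.2 ev eΘ eg
      (d1.ord (by omega)) d2 (Ioc_subset_Icc_self (rg z hz))
    have i := inv_anti₀ (by linarith) b2
    have m2 := fun u : z.1 - z.2.1 - 2 * t ≤ 0 => mt z g w.2 (((Wo_ev w).and
      ((show Continuous fun y : R4 => y.1 - y.2.1 - 2 * t by fun_prop).continuousAt.eventually
        (gt_mem_nhds (show _ < s1 + 1 by linarith)))).mono fun y hy => L.inn y hy.1 hy.2.le)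
      (eΘ ▸ eg)
    refine ⟨g1, i.trans g2, i.trans g3, i.trans g4, fun u => (m2 (by linarith)).1 (by linarith),
      fun u => ?_⟩
    rcases lt_or_ge (z.1 - z.2.1 - 2 * t) 0 with v | v
    · exact shp_mono ((m2 v.le).2 v) (by linarith)
    · obtain ⟨y1, y2⟩ := abs_lt.1 hz.1
      obtain ⟨e1, e2, -, e4, -⟩ := b9' z hz (by linarith)
      refine shp_mono ((hm _ _ _ _ _ _ _ _ _ _ _ _ Lz Θ _ _ z g f nM.1 nM.2 w.2 ev eΘ eg
        ((e1.ord (by omega)).mono (by linarith)) (fun v => (e2 v).trans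
          (mul_le_mul_of_nonneg_right (by linarith) (norm_nonneg _))) ⟨e4, (rg z hz).2⟩).2.2.2.2 _
        (Icc_subset_Icc_right ?_ (jb_mem v (L := |K2| + 3) (by linarith [hz.2.2.2]))))
        (by linarith)
      linarith

theorem kch : KCH := by
  intro j hj _ hM
  have h := fun i : Bool × Bool =>
    let ⟨_, e, _, _, r1, _, _, a1, a2, a3, a4⟩ :=
      P354RF.ref j.M j.a j.M j.k j.ε0 j.δ j.G j.H hj.hG hj.hH rfl rfl i.1 i.2
    Exists.intro (p := fun r1 => ∃ C1 ≥ 1, _) r1 (one hj ⟨hM, e.1, a1, a2, a3, a4⟩)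
  choose r1 C1 c1 r0 h using h
  have mx : ∀ f : Bool × Bool → ℝ, ∃ C ≥ 1, ∀ i, f i ≤ C := fun f =>
    let ⟨C, hC⟩ := Finite.exists_le f
    ⟨max C 1, le_max_right _ _, fun i => le_max_of_le_left (hC i)⟩
  have mn : ∀ f : Bool × Bool → ℝ, (∀ i, 0 < f i) → ∃ e > 0, ∀ i, e ≤ f i := fun f p =>
    let ⟨i, hi⟩ := Finite.exists_min f
    ⟨f i, p i, hi⟩
  obtain ⟨C, c, hC⟩ := mx C1
  obtain ⟨r, -, hr⟩ := mx fun i => r1 i + 2
  obtain ⟨r', -, hr'⟩ := mx r0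
  refine ⟨C, c, r, r', fun r2 h2 => ?_⟩
  choose C2 _ h using fun i => h i r2 ((hr' i).trans h2)
  obtain ⟨D, d, hD⟩ := mx C2
  refine ⟨D, d, fun k t t0 rr p0 hp => ?_⟩
  choose B b1 ρ hρ ε ε0 h using fun i => h i k t t0 rr p0 hp
  obtain ⟨B', b', hB⟩ := mx B
  obtain ⟨ρ', ρ0, hρ'⟩ := mn ρ fun i => (hρ i).1
  obtain ⟨ε', e0, he⟩ := mn ε ε0
  refine ⟨B', b', ρ', ⟨ρ0, (hρ' (true, true)).trans (hρ _).2⟩, ε', e0, fun q q' n n' c φ b σ => ?_⟩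
  obtain ⟨R1, h⟩ := h (b, σ) q q' (near_mono n (he _)) (near_mono n' (he _)) c φ
  refine ⟨R1, fun R hR => ?_⟩
  obtain ⟨T, s2, Θ, Y, h⟩ := h R hR
  exact ⟨T, s2, Θ, Y, kc_mono h (c1 _) (b1 _) (hC _) (hD _) (hB _) (hr _) (hρ' _)⟩

end Vale.Agent.P354NE
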