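import Vale.Agent.P354SM.NDefs
import Vale.Agent.P354RF.Rep
import Vale.Agent.P354XM.Kin
import Vale.Agent.P354XA.Lid
import Vale.Agent.P354YT.Fn

/-!
The rays of Kerr on compact sets, and the new parameter along the rays.
-/

set_option maxSynthPendingDepth 3

open scoped ContDiff
open Set Filter Topology Function Real

noncomputable section

namespace Vale.Agent.P354NE

open Vale.Agent.P354n (R4)
open Vale.Agent.P354H (X3)
open Vale.Agent.P354I (P3 rm rp)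
open Vale.Agent.P354XE (rd ka)
open Vale.Agent.P354XA (hor rd_cont psi_deriv lo1)
open Vale.Agent.P354YI (Oj at_fd)
open Vale.Agent.P354YQ (SA JB JD oj_jb)
open Vale.Agent.P354RF (rep rp_d rp_le)
open Vale.Agent.P354SA

/-- The cross sections. -/
def Ac : Set X3 := Icc (-1) 1 ×ˢ Metric.closedBall 0 9
def Wo : Set X3 := {x | |x.1| < 1 ∧ ‖x.2‖ < 9}

theorem Ac_cpt : IsCompact Ac := isCompact_Icc.prod (isCompact_closedBall _ _)

theorem Wo_open : IsOpen Wo :=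
  (isOpen_lt continuous_fst.abs continuous_const).inter
    (isOpen_lt continuous_snd.norm continuous_const)

theorem Wo_sub : Wo ⊆ Ac := fun _ h => ⟨abs_le.1 h.1.le, mem_closedBall_zero_iff.2 h.2.le⟩

theorem Ac_le {x : X3} (h : x ∈ Ac) : ‖x.2‖ ≤ 9 := mem_closedBall_zero_iff.1 h.2

theorem Wo_ev {z : R4} (h : z.2 ∈ Wo) : ∀ᶠ y : R4 in 𝓝 z, y.2 ∈ Wo :=
  (Wo_open.preimage continuous_snd).eventually_mem h

variable {p0 : P3} {k ε1 C0 s1 r1 : ℝ} {H : ℕ → P354RG.Y3 → ℝ} {b σ : Bool}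
  {Ψ : P3 × ℝ → R4 → R4} {S : P354RG.Y3 → ℝ} {x : P3 × ℝ} {w : R4}

theorem psi_cd (h : Ref p0 k ε1 C0 s1 r1 H b σ Ψ S x) (hw : ‖w.2.2‖ ≤ 9) :
    ContDiffAt ℝ ∞ (Ψ x) w := (h.smooth w hw).comp w (f := fun w => (x, w)) (by fun_prop)

theorem psi_sa (h : Ref p0 k ε1 C0 s1 r1 H b σ Ψ S x) (hw : w.2 ∈ Wo) : SA (Ψ x) w :=
  (Wo_ev hw).mono fun _ k => psi_cd h k.2.le

/-- The radius increases along the rays. -/
theorem rd_mono (h : Ref p0 k ε1 C0 s1 r1 H b σ Ψ S x) {y : X3} (hy : ‖y.2‖ ≤ 9) :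
    Monotone fun s => rd (Ψ x (s, y)) := by
  have d := fun s => rp_d (g := fun y => rd (Ψ x y)) (w := (s, y))
    (by_contra fun e => by
      simpa [fderiv_zero_of_not_differentiableAt e] using (h.imm (s, y) hy).2.2.2)
  exact monotone_of_deriv_nonneg (fun s => (d s).differentiableAt) fun s =>
    (d s).deriv ▸ (h.imm (s, y) hy).2.2.2.le

theorem psi_bd {K : Set (P3 × ℝ)} (hK : IsCompact K)
    (h : ∀ x ∈ K, Ref p0 k ε1 C0 s1 r1 H b σ Ψ S x ∧ |x.1.2.1| < x.1.1) (n : ℕ) (L : ℝ) :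
    ∃ B ≥ 1, ∀ x ∈ K, ∀ w : R4, |w.1| ≤ L → w.2 ∈ Wo → JB n (Ψ x) w B ∧
      (∀ v, ‖v‖ ≤ B * ‖fderiv ℝ (Ψ x) w v‖) ∧ (fderiv ℝ (Ψ x) w e0).1 ≤ -B⁻¹ ∧
      B⁻¹ ≤ rd (Ψ x w) := by
  have hQ := hK.prod ((isCompact_Icc (a := -L) (b := L)).prod Ac_cpt)
  generalize eQ : K ×ˢ Icc (-L) L ×ˢ Ac = Q at hQ
  have mQ : ∀ y ∈ Q, y.1 ∈ K ∧ ‖y.2.2.2‖ ≤ 9 := fun y hy => by
    subst eQ; exact ⟨hy.1, Ac_le hy.2.2⟩
  have mQ' : ∀ x ∈ K, ∀ w : R4, |w.1| ≤ L → w.2 ∈ Wo → (x, w) ∈ Q := fun x hx w a c => by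
    subst eQ; exact ⟨hx, abs_le.1 a, Wo_sub c⟩
  have s : ∀ y ∈ Q, ContDiffAt ℝ ∞ (fun y : (P3 × ℝ) × R4 => Ψ y.1 y.2) y := fun y hy =>
    (h _ (mQ y hy).1).1.smooth _ (mQ y hy).2
  have c : ContinuousOn (fun y : (P3 × ℝ) × R4 => fderiv ℝ (Ψ y.1) y.2) Q :=
    ContinuousOn.congr (f := fun y => (fderiv ℝ (fun y : (P3 × ℝ) × R4 => Ψ y.1 y.2) y).comp
      (.inr ℝ _ _)) (fun y hy => ((at_fd (s y hy)).continuousAt.clm_comp
        continuousAt_const).continuousWithinAt) fun y hy =>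
      (HasFDerivAt.comp y.2 (f := fun w => (y.1, w))
        ((s y hy).differentiableAt (by simp)).hasFDerivAt (hasFDerivAt_prodMk_right y.1 y.2)).fderiv
  have i : ∀ y ∈ Q, (fderiv ℝ (Ψ y.1) y.2).IsInvertible := fun y hy =>
    ⟨(LinearEquiv.ofInjectiveEndo (fderiv ℝ (Ψ y.1) y.2 : R4 →ₗ[ℝ] R4)
      ((h _ (mQ y hy).1).1.imm _ (mQ y hy).2).1).toContinuousLinearEquiv,
      ContinuousLinearMap.ext fun _ => rfl⟩
  obtain ⟨B1, h1⟩ := hQ.exists_bound_of_continuousOn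
    (f := fun y => (fderiv ℝ (Ψ y.1) y.2).inverse) fun y hy =>
      ContinuousAt.comp_continuousWithinAt (f := fun y : (P3 × ℝ) × R4 => fderiv ℝ (Ψ y.1) y.2)
        ((i y hy).contDiffAt_map_inverse (n := 0)).continuousAt (c y hy)
  obtain ⟨d, d0, hd⟩ := hQ.exists_forall_le' (a := 0)
    (f := fun y => min (-(fderiv ℝ (Ψ y.1) y.2 e0).1) (rd (Ψ y.1 y.2)))
    ((c.clm_apply continuousOn_const).fst.neg.inf (rd_cont.comp_continuousOn fun y hy =>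
      (s y hy).continuousAt.continuousWithinAt)) fun y hy => by
      obtain ⟨-, a1, a2, -⟩ := (h _ (mQ y hy).1).1.imm _ (mQ y hy).2
      exact lt_min (neg_pos.2 a2) ((hor (h _ (mQ y hy).1).2).2.1.trans_lt a1)
  let J := {y : (P3 × ℝ) × R4 // y.1 ∈ K ∧ |y.2.1| ≤ L ∧ y.2.2 ∈ Wo}
  obtain ⟨B2, h2⟩ := oj_jb (k := n) (z := fun j : J => j.1.2) (f := fun j => Ψ j.1.1)
    (Oj.comp (f := fun (j : J) (w : R4) => (j.1.1, w)) (fun _ => by fun_prop) _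
      ((Oj.cst (ContinuousLinearMap.inr ℝ _ R4)).congr' fun j y =>
        (hasFDerivAt_prodMk_right j.1.1 y).fderiv)
      (Oj.fix hQ s fun j => mQ' _ j.2.1 _ j.2.2.1 j.2.2.2)) fun j => psi_sa (h _ j.2.1).1 j.2.2.2
  have n1 := abs_nonneg B1
  have n2 := abs_nonneg B2
  have n3 := inv_pos.2 d0
  refine ⟨|B1| + |B2| + d⁻¹ + 1, by linarith, fun x hx w a c => ?_⟩
  have m := mQ' x hx w a c
  have e := (inv_le_of_inv_le₀ d0 (show d⁻¹ ≤ |B1| + |B2| + d⁻¹ + 1 by linarith)).trans (hd _ m)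
  refine ⟨(h2 ⟨(x, w), hx, a, c⟩).mono (by linarith [le_abs_self B2]), fun v => ?_,
    le_neg.1 (e.trans (min_le_left _ _)), e.trans (min_le_right _ _)⟩
  refine le_of_eq_of_le (congrArg _ ((i _ m).inverse_apply_self v).symm)
    (ContinuousLinearMap.le_of_opNorm_le _ ((h1 _ m).trans ?_) _)
  linarith [le_abs_self B1]

/-! ### The new parameter; P = (x, l / l', M', a') -/

abbrev PP : Type := (P3 × ℝ) × ℝ × ℝ × ℝ

def tt (T0 : ℝ) (P : PP) (p : R4) : ℝ := T0 - P.2.1 * p.1 + Fq P.2.2.1 P.2.2.2 (rd p)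
def hh (Ψ : P3 × ℝ → R4 → R4) (s1 r1 : ℝ) (y : PP × R4) : ℝ :=
  Fq y.1.2.2.1 y.1.2.2.2 (r1 + (y.2.1 - s1) / 2) - y.1.2.1 * (Ψ y.1.1 y.2).1 - y.2.1 - y.2.2.1
def GG (Ψ : P3 × ℝ → R4 → R4) (s1 r1 T0 : ℝ) (y : PP × R4) : ℝ :=
  y.2.1 + y.2.2.1 + smoothTransition (y.2.1 - s1 - 1) * (T0 + hh Ψ s1 r1 y)
def Ok (p0 : P3) (k ε1 C0 s1 r1 : ℝ) (H : ℕ → P354RG.Y3 → ℝ) (b σ : Bool)
    (Ψ : P3 × ℝ → R4 → R4) (S : P354RG.Y3 → ℝ) (P : PP) : Prop :=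
  (Ref p0 k ε1 C0 s1 r1 H b σ Ψ S P.1 ∧ |P.1.1.2.1| < P.1.1.1) ∧ 0 < P.2.1 ∧
    |P.2.2.2| < P.2.2.1 ∧ 2 * P.2.2.1 < r1

theorem fq_cd {y : ℝ × ℝ × ℝ} (h : |y.2.2| < y.2.1) (hr : rp y.2.1 y.2.2 < y.1) :
    ContDiffAt ℝ ∞ (fun y : ℝ × ℝ × ℝ => Fq y.2.1 y.2.2 y.1) y := by
  obtain ⟨h0, h1, h2, -, h4, -⟩ := hor h
  have a1 := (sub_pos.2 hr).ne'
  have a2 := (sub_pos.2 (h2.trans hr)).ne'
  have a3 := (h1.trans_lt h2).ne'
  have a4 := h4.ne'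
  have a5 := (mul_pos (mul_pos two_pos h0) (h1.trans_lt h2)).ne'
  have a6 : y.2.1 ^ 2 - y.2.2 ^ 2 ≠ 0 := by nlinarith [sq_abs y.2.2, abs_nonneg y.2.2]
  unfold Fq ka rp rm at *
  fun_prop (disch := assumption)

theorem lo1_ge {M a r : ℝ} (h : |a| < M) (hr : rp M a < r) : 1 ≤ lo1 M a r := by
  obtain ⟨h0, h1, h2, -, -, h5, -⟩ := hor h
  have D : 0 < P354R.Del M a r := h5 r ▸ mul_pos (sub_pos.2 hr) (sub_pos.2 (h2.trans hr))
  rw [lo1, le_sub_iff_add_le, le_div_iff₀ D]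
  unfold P354R.Del
  nlinarith [mul_pos h0 ((h1.trans_lt h2).trans hr)]

theorem st_d1 {x : ℝ} (h : 1 ≤ x) : deriv smoothTransition x = 0 :=
  IsLocalMax.deriv_eq_zero (Eventually.of_forall fun y => by
    rw [smoothTransition.one_of_one_le h]; exact smoothTransition.le_one y)

variable {P : PP} {T0 : ℝ}

theorem Ok.rp (h : Ok p0 k ε1 C0 s1 r1 H b σ Ψ S P) (hw : s1 ≤ w.1) :
    rp P.2.2.1 P.2.2.2 < r1 + (w.1 - s1) / 2 := by
  linarith [(hor h.2.2.1).2.2.2.1, h.2.2.2]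

theorem hh_cd (h : Ok p0 k ε1 C0 s1 r1 H b σ Ψ S P) (hw : ‖w.2.2‖ ≤ 9) (hs : s1 ≤ w.1) :
    ContDiffAt ℝ ∞ (hh Ψ s1 r1) (P, w) := by
  have a := ContDiffAt.comp (P, w) (f := fun y : PP × R4 => (r1 + (y.2.1 - s1) / 2, y.1.2.2))
    (fq_cd h.2.2.1 (h.rp hs)) (by fun_prop)
  have c := ContDiffAt.comp (P, w) (f := fun y : PP × R4 => (y.1.1, y.2)) (h.1.1.smooth w hw)
    (by fun_prop)
  exact ((a.sub (ContDiffAt.mul (by fun_prop) c.fst)).sub (by fun_prop)).sub (by fun_prop)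

theorem GG_in (hs : w.1 ≤ s1 + 1) : GG Ψ s1 r1 T0 (P, w) = w.1 + w.2.1 := by
  rw [GG, smoothTransition.zero_of_nonpos (by linarith), zero_mul, add_zero]

theorem GG_out (h : Ok p0 k ε1 C0 s1 r1 H b σ Ψ S P) (hw : ‖w.2.2‖ ≤ 9) (hs : s1 + 2 ≤ w.1) :
    GG Ψ s1 r1 T0 (P, w) = tt T0 P (Ψ P.1 w) := by
  rw [GG, smoothTransition.one_of_one_le (by linarith), tt, h.1.1.rad w hw (by linarith), hh]
  ring

theorem GG_ev (hs : w.1 < s1 + 1) :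
    GG Ψ s1 r1 T0 =ᶠ[𝓝 (P, w)] fun y => y.2.1 + y.2.2.1 :=
  ((continuous_snd.fst.continuousAt (x := (P, w))).eventually (gt_mem_nhds hs)).mono
    fun _ k => GG_in k.le

theorem GG_cd (h : Ok p0 k ε1 C0 s1 r1 H b σ Ψ S P) (hw : ‖w.2.2‖ ≤ 9) :
    ContDiffAt ℝ ∞ (GG Ψ s1 r1 T0) (P, w) := by
  rcases lt_or_ge w.1 (s1 + 1) with hs | hs
  · exact ContDiffAt.congr_of_eventuallyEq (by fun_prop) (GG_ev hs)
  · exact ContDiffAt.add (by fun_prop) ((P354YT.st_cd.contDiffAt.comp (P, w)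
      (f := fun y : PP × R4 => y.2.1 - s1 - 1) (by fun_prop)).mul
      (contDiffAt_const.add (hh_cd h hw (by linarith))))

theorem GG_d (h : Ok p0 k ε1 C0 s1 r1 H b σ Ψ S P) (hw : ‖w.2.2‖ ≤ 9)
    (hT : s1 + 1 ≤ w.1 → w.1 ≤ s1 + 2 → 0 ≤ T0 + hh Ψ s1 r1 (P, w)) :
    1 / 2 ≤ fderiv ℝ (fun w => GG Ψ s1 r1 T0 (P, w)) w e0 := by
  have d := rp_d (((GG_cd (T0 := T0) h hw).comp w (f := fun w => (P, w))
    (by fun_prop)).differentiableAt (by simp))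
  rcases lt_or_ge w.1 (s1 + 1) with hs | hs
  · refine le_of_le_of_eq (by norm_num) (HasDerivAt.unique (((hasDerivAt_id w.1).add_const
      w.2.1).congr_of_eventuallyEq ((eventually_lt_nhds hs).mono fun s k => ?_)) d)
    exact GG_in k.le
  have r := h.rp (w := w) (by linarith)
  have d1 := (psi_deriv h.2.2.1 r).comp w.1
    ((((hasDerivAt_id w.1).sub_const s1).div_const 2).const_add r1)
  have d2 := (rp_d (g := fun w => (Ψ P.1 w).1)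
    ((psi_cd h.1.1 hw).differentiableAt (by simp)).fst).const_mul P.2.1
  have d3 := (P354YT.st_d (w.1 - s1 - 1)).comp w.1 (((hasDerivAt_id w.1).sub_const s1).sub_const 1)
  refine le_of_le_of_eq ?_ (HasDerivAt.unique (((hasDerivAt_id w.1).add_const w.2.1).add (d3.mul
    ((((d1.sub d2).sub (hasDerivAt_id w.1)).sub_const w.2.1).const_add T0))) d)
  rw [fderiv.fst ((psi_cd h.1.1 hw).differentiableAt (by simp))]
  have k1 : 0 ≤ deriv smoothTransition (w.1 - s1 - 1) * (T0 + hh Ψ s1 r1 (P, w)) := by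
    rcases le_total w.1 (s1 + 2) with c | c
    · exact mul_nonneg (P354YT.st_d0 _) (hT hs c)
    · rw [st_d1 (by linarith), zero_mul]
  have k2 := mul_neg_of_pos_of_neg h.2.1 (h.1.1.imm w hw).2.2.1
  have k3 := lo1_ge h.2.2.1 r
  obtain ⟨k4, k5⟩ := P354YT.st_mem (w.1 - s1 - 1)
  change _ ≤ 1 + (_ * 1 * (T0 + hh Ψ s1 r1 (P, w)) + smoothTransition (w.1 - s1 - 1) *
    (_ - P.2.1 * (fderiv ℝ (Ψ P.1) w e0).1 - 1))
  nlinarith

end Vale.Agent.P354NE
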