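import Vale.Agent.P354SA.Defs
import Vale.Agent.P354SN.Vf
import Vale.Agent.P354XA.Farw

/-!
A change of the parameter along the lines in the direction e0.
-/

set_option maxSynthPendingDepth 3

open scoped ContDiff
open Set Filter Topology Function

noncomputable section

namespace Vale.Agent.P354NE

open Vale.Agent.P354n (R4)
open Vale.Agent.P354H (X3)
open Vale.Agent.P354RC (at_fd at_df)
open Vale.Agent.P354YI (Oj)
open Vale.Agent.P354SA (e0 e1 ey)

/-- The change of the parameter, and its inverse. -/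
def Sig (G : R4 → ℝ) (z : R4) : R4 := (G z, z.2)
def Lam (G : R4 → ℝ) (W : Set X3) : R4 → R4 := invFunOn (Sig G) {z | z.2 ∈ W}

/-- G increases along e0. -/
structure Up (G : R4 → ℝ) (W : Set X3) : Prop where
  op : IsOpen W
  sm : ∀ z : R4, z.2 ∈ W → ContDiffAt ℝ ∞ G z
  d : ∀ z : R4, z.2 ∈ W → 1 / 2 ≤ fderiv ℝ G z e0

theorem split (v : R4) : v = v.1 • e0 + (0, v.2) :=
  Prod.ext (by simp [e0]) (by simp [e0, Prod.mk_zero_zero])

theorem line_d (s : ℝ) (x : X3) : HasDerivAt (fun s : ℝ => ((s, x) : R4)) e0 s :=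
  (hasDerivAt_id s).prodMk (hasDerivAt_const s x)

/-- The inverse of the derivative. -/
def iA (A : R4 →L[ℝ] ℝ) : R4 →L[ℝ] R4 :=
  ((A e0)⁻¹ • (ContinuousLinearMap.fst ℝ ℝ X3 -
    A.comp ((ContinuousLinearMap.inr ℝ ℝ X3).comp (.snd ℝ ℝ X3)))).prod (.snd ℝ ℝ X3)

theorem iA_ap (A : R4 →L[ℝ] ℝ) (v : R4) : iA A v = ((A e0)⁻¹ * (v.1 - A (0, v.2)), v.2) := rfl

theorem iA_inv {A : R4 →L[ℝ] ℝ} (h : A e0 ≠ 0) : (A.prod (.snd ℝ ℝ X3)).IsInvertible ∧
    (A.prod (.snd ℝ ℝ X3)).inverse = iA A := by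
  have a : (A.prod (.snd ℝ ℝ X3)).comp (iA A) = .id ℝ R4 := ContinuousLinearMap.ext fun v => by
    refine Prod.ext ?_ rfl
    show A (iA A v) = v.1
    rw [split (iA A v), map_add, map_smul, iA_ap, smul_eq_mul]
    field_simp
    ring
  have b : (iA A).comp (A.prod (.snd ℝ ℝ X3)) = .id ℝ R4 := ContinuousLinearMap.ext fun v => by
    refine Prod.ext ?_ rfl
    show (A e0)⁻¹ * (A v - A (0, v.2)) = v.1
    rw [congrArg A (split v), map_add, map_smul, smul_eq_mul]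
    field_simp
    ring
  exact ⟨.of_inverse a b, ContinuousLinearMap.inverse_eq a b⟩

theorem iA_le {A : R4 →L[ℝ] ℝ} (h : 1 / 2 ≤ A e0) : ‖iA A‖ ≤ 2 * (1 + ‖A‖) := by
  refine ContinuousLinearMap.opNorm_le_bound _ (by positivity) fun v => ?_
  have a : ‖A (0, v.2)‖ ≤ ‖A‖ * ‖v‖ := A.le_of_opNorm_le_of_le le_rfl (by
    simpa [Prod.norm_def ((0 : ℝ), v.2)] using norm_snd_le v)
  have b : |(A e0)⁻¹| ≤ 2 := by
    rw [abs_of_pos (by positivity)]
    exact inv_le_of_inv_le₀ two_pos (by linarith)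
  have c := norm_fst_le v
  have n := norm_nonneg v
  have n2 := norm_nonneg A
  rw [iA_ap, Prod.norm_def]
  refine max_le ?_ ((norm_snd_le v).trans (by nlinarith))
  rw [norm_mul]
  exact (mul_le_mul b (norm_sub_le_of_le c a) (norm_nonneg _) two_pos.le).trans_eq (by ring)

namespace Up
variable {G : R4 → ℝ} {W : Set X3} (h : Up G W) {z : R4} {x : X3}
include h

theorem opn : IsOpen {z : R4 | z.2 ∈ W} := h.op.preimage continuous_snd

theorem dG (hx : x ∈ W) (s : ℝ) : HasDerivAt (fun s => G (s, x)) (fderiv ℝ G (s, x) e0) s :=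
  (at_df (h.sm (s, x) hx)).hasFDerivAt.comp_hasDerivAt s (line_d s x)

theorem grow (hx : x ∈ W) {s s' : ℝ} (k : s ≤ s') : G (s, x) + (s' - s) / 2 ≤ G (s', x) := by
  have := mul_sub_le_image_sub_of_le_deriv (f := fun s => G (s, x)) (C := 1 / 2)
    (fun s => (h.dG hx s).differentiableAt) (fun s => (h.dG hx s).deriv ▸ h.d (s, x) hx) k
  linarith

theorem mono (hx : x ∈ W) : StrictMono fun s => G (s, x) := fun s s' k => by
  linarith [h.grow hx k.le]

theorem sig_sm (hz : z.2 ∈ W) : ContDiffAt ℝ ∞ (Sig G) z := (h.sm z hz).prodMk contDiffAt_snd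

theorem sig_fd (hz : z.2 ∈ W) : fderiv ℝ (Sig G) z = (fderiv ℝ G z).prod (.snd ℝ ℝ X3) :=
  ((at_df (h.sm z hz)).hasFDerivAt.prodMk hasFDerivAt_snd).fderiv

theorem ne (hz : z.2 ∈ W) : fderiv ℝ G z e0 ≠ 0 := by linarith [h.d z hz]

theorem inj : InjOn (Sig G) {z | z.2 ∈ W} := fun z hz z' _ e => by
  obtain ⟨e1, e2⟩ := Prod.mk.inj e
  exact Prod.ext ((h.mono hz).injective (e1.trans (by rw [e2]))) e2

theorem surj (hz : z.2 ∈ W) : ∃ y : R4, y.2 ∈ W ∧ Sig G y = z := by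
  have c : Continuous fun s => G (s, z.2) :=
    continuous_iff_continuousAt.2 fun s => (h.dG hz s).continuousAt
  obtain ⟨s, -, e⟩ := intermediate_value_uIcc (a := -(2 * |z.1 - G (0, z.2)|))
    (b := 2 * |z.1 - G (0, z.2)|) c.continuousOn (mem_uIcc_of_le (x := z.1)
      (by linarith [h.grow hz (show -(2 * |z.1 - G (0, z.2)|) ≤ 0 by simp),
        neg_abs_le (z.1 - G (0, z.2))])
      (by linarith [h.grow hz (show 0 ≤ 2 * |z.1 - G (0, z.2)| by simp),
        le_abs_self (z.1 - G (0, z.2))]))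
  exact ⟨(s, z.2), hz, Prod.ext e rfl⟩

theorem right (hz : z.2 ∈ W) : Sig G (Lam G W z) = z := invFunOn_eq (h.surj hz)

theorem snd (hz : z.2 ∈ W) : (Lam G W z).2 = z.2 := (congrArg Prod.snd (h.right hz) :)

theorem mem (hz : z.2 ∈ W) : (Lam G W z).2 ∈ W := (h.snd hz).symm ▸ hz

theorem fst (hz : z.2 ∈ W) : G (Lam G W z) = z.1 := congrArg Prod.fst (h.right hz)

theorem left (hz : z.2 ∈ W) : Lam G W (Sig G z) = z := h.inj.leftInvOn_invFunOn hz

theorem eq (hz : z.2 ∈ W) : Lam G W z = ((Lam G W z).1, z.2) := Prod.ext rfl (h.snd hz)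

theorem le_iff (hz : z.2 ∈ W) {s : ℝ} : (Lam G W z).1 ≤ s ↔ z.1 ≤ G (s, z.2) := by
  rw [← (h.mono hz).le_iff_le, ← h.eq hz, h.fst hz]

theorem ge_iff (hz : z.2 ∈ W) {s : ℝ} : s ≤ (Lam G W z).1 ↔ G (s, z.2) ≤ z.1 := by
  rw [← (h.mono hz).le_iff_le, ← h.eq hz, h.fst hz]

theorem lam_sm (hz : z.2 ∈ W) : ContDiffAt ℝ ∞ (Lam G W) z := by
  obtain ⟨a, b⟩ := P354SN.glob_inv h.opn (fun z hz => (h.sig_sm hz).contDiffWithinAt)
    (fun z hz => by
      obtain ⟨A, e⟩ := (iA_inv (h.ne hz)).1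
      rw [h.sig_fd hz, ← e]
      exact A.injective) h.inj
  exact b.contDiffAt (a.mem_nhds (h.surj hz))

theorem lam_fd (hz : z.2 ∈ W) : fderiv ℝ (Lam G W) z = iA (fderiv ℝ G (Lam G W z)) := by
  have m := h.mem hz
  have a := (at_df (h.sig_sm m)).hasFDerivAt.comp z (at_df (h.lam_sm hz)).hasFDerivAt
  have b := a.unique ((hasFDerivAt_id z).congr_of_eventuallyEq
    ((h.opn.eventually_mem hz).mono fun _ k => h.right k))
  obtain ⟨c, d⟩ := iA_inv (h.ne m)
  rw [h.sig_fd m] at b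
  rw [← d, ← ContinuousLinearMap.comp_id (ContinuousLinearMap.inverse _), ← b,
    ← ContinuousLinearMap.comp_assoc, c.inverse_comp_self, ContinuousLinearMap.id_comp]

theorem lam_inj : InjOn (Lam G W) {z | z.2 ∈ W} := fun z hz z' hz' e => by
  rw [← h.right hz, e, h.right hz']

theorem lam_low (hz : z.2 ∈ W) (v : R4) :
    ‖v‖ ≤ (‖fderiv ℝ G (Lam G W z)‖ + 1) * ‖fderiv ℝ (Lam G W) z v‖ := by
  obtain ⟨c, d⟩ := iA_inv (h.ne (h.mem hz))
  rw [h.lam_fd hz, ← d]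
  generalize fderiv ℝ G (Lam G W z) = A at c ⊢
  obtain ⟨w, rfl⟩ : ∃ w, v = A.prod (.snd ℝ ℝ X3) w := ⟨_, (DFunLike.congr_fun c.self_comp_inverse v).symm⟩
  rw [c.inverse_apply_self, ContinuousLinearMap.prod_apply, Prod.norm_def]
  have n := norm_nonneg w
  have n2 := norm_nonneg A
  exact max_le ((A.le_opNorm w).trans (by nlinarith)) ((norm_snd_le w).trans (by nlinarith))

end Up

/-- The jets of the inverse. -/
theorem oj_lam {J : Type} {G : J → R4 → ℝ} {W : Set X3} (h : ∀ j, Up (G j) W) {z : J → R4}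
    (hz : ∀ j, (z j).2 ∈ W) (m : ℕ)
    (hG : Oj m (fun j => Lam (G j) W (z j)) (fun j => fderiv ℝ (G j)) 1) :
    Oj m z (fun j => fderiv ℝ (Lam (G j) W)) 1 := by
  have k := fun j => (h j).mem (hz j)
  obtain ⟨C, -, hC⟩ := hG.val
  refine P354XA.oj_inv (fun j => (h j).lam_sm (hz j))
    (A := fun j y => ((fderiv ℝ (G j) y).prod (.snd ℝ ℝ X3)).inverse) (fun j => ?_) m
    (Oj.inv (fun j => (iA_inv ((h j).ne (k j))).1) ⟨2 * (1 + C), fun j => ?_⟩
      ((((hG.clm (ContinuousLinearMap.compL ℝ R4 ℝ R4 (.inl ℝ ℝ X3))).add (Oj.cst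
        ((ContinuousLinearMap.inr ℝ ℝ X3).comp (.snd ℝ ℝ X3)))).congr' fun j y => by
          ext <;> simp)))
  · filter_upwards [(h j).opn.eventually_mem (hz j)] with y hy
    rw [(h j).lam_fd hy, (iA_inv ((h j).ne ((h j).mem hy))).2]
  · rw [(iA_inv ((h j).ne (k j))).2]
    exact (iA_le ((h j).d _ (k j))).trans (by simpa using hC j)

end Vale.Agent.P354NE
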