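import Vale.Agent.P354NE.Psi

/-!
The inverse change of the parameter, and the chart.
-/

set_option maxSynthPendingDepth 3

open scoped ContDiff
open Set Filter Topology Function Real

noncomputable section

namespace Vale.Agent.P354NE

open Vale.Agent.P354n (R4)
open Vale.Agent.P354H (X3)
open Vale.Agent.P354I (P3 rm rp)
open Vale.Agent.P354XE (rd)
open Vale.Agent.P354XM (sh rot sh_fd sh_eq sh_sh sh_zero rot_ap rot_norm rd_sh)
open Vale.Agent.P354YQ (SA JB JD)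
open Vale.Agent.P354RF (rep rp_d rp_le)
open Vale.Agent.P354SA

variable {p0 : P3} {k ε1 C0 s1 r1 : ℝ} {H : ℕ → P354RG.Y3 → ℝ} {b σ : Bool}
  {Ψ : P3 × ℝ → R4 → R4} {S : P354RG.Y3 → ℝ} {K : Set PP}

/-- The properties of the change of the parameter. -/
structure Lm (s1 K0 : ℝ) (u : R4 → ℝ) (Λ : R4 → R4) : Prop where
  sa : ∀ z : R4, z.2 ∈ Wo → SA Λ z ∧ (Λ z).2 = z.2 ∧ ∃ α > (0 : ℝ), fderiv ℝ Λ z e0 = α • e0
  inn : ∀ z : R4, z.2 ∈ Wo → z.1 - z.2.1 ≤ s1 + 1 → Λ z = (z.1 - z.2.1, z.2)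
  far : ∀ z : R4, z.2 ∈ Wo → K0 ≤ z.1 → s1 + 2 ≤ (Λ z).1
  out : ∀ z : R4, z.2 ∈ Wo → s1 + 2 ≤ (Λ z).1 → u (Λ z) = z.1
  mono : ∀ x ∈ Wo, Monotone fun s => (Λ (s, x)).1
  inj : InjOn Λ {z | z.2 ∈ Wo}

theorem lam_ex (hK : IsCompact K) (h : ∀ P ∈ K, Ok p0 k ε1 C0 s1 r1 H b σ Ψ S P) :
    ∃ (T0 K0 : ℝ) (Λ : PP → R4 → R4),
      (∀ P ∈ K, Lm s1 K0 (fun w => tt T0 P (Ψ P.1 w)) (Λ P)) ∧
      (∀ r ≥ 1, ∃ K2, ∀ P ∈ K, tt T0 P (Ψ P.1 (s1 + 2 * r, 0)) ∈ Icc (r - 1 - K0) K2) ∧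
      ∀ (n : ℕ) (L : ℝ), ∃ B ≥ 1, ∀ P ∈ K, ∀ z : R4, z.2 ∈ Wo → |z.1| ≤ L →
        JD n (Λ P) z B ∧ |(Λ P z).1| ≤ B ∧ ∀ v, ‖v‖ ≤ B * ‖fderiv ℝ (Λ P) z v‖ := by
  obtain ⟨T0, hT⟩ := (hK.prod ((isCompact_Icc (a := s1 + 1) (b := s1 + 2)).prod
    Ac_cpt)).exists_bound_of_continuousOn (f := hh Ψ s1 r1) fun y hy =>
      (hh_cd (h _ hy.1) (Ac_le hy.2.2) (by linarith [hy.2.1.1])).continuousAt.continuousWithinAt
  have hs := fun P hP (w : R4) (hw : w.2 ∈ Ac) => GG_cd (T0 := T0) (h P hP) (Ac_le hw)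
  have hd := fun P hP (w : R4) (hw : w.2 ∈ Ac) => GG_d (T0 := T0) (h P hP) (Ac_le hw)
    fun a c => by linarith [(abs_le.1 (hT (P, w) ⟨hP, ⟨a, c⟩, hw⟩)).1]
  have bd : ∀ s, ∃ K1, ∀ P ∈ K, ∀ x ∈ Ac, |GG Ψ s1 r1 T0 (P, s, x)| ≤ K1 := fun s =>
    ((hK.prod ((isCompact_singleton (x := s)).prod Ac_cpt)).exists_bound_of_continuousOn
      fun y hy => (hs _ hy.1 _ hy.2.2).continuousAt.continuousWithinAt).imp
      fun _ c P hP x hx => c (P, s, x) ⟨hP, rfl, hx⟩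
  have gr : ∀ P ∈ K, ∀ {y}, y ∈ Ac → ∀ {s t : ℝ}, s ≤ t → 1 / 2 * (t - s) ≤
      GG Ψ s1 r1 T0 (P, t, y) - GG Ψ s1 r1 T0 (P, s, y) := fun P hP _ hy _ _ c =>
    rp_le (fun w hw => (hs P hP w hw).comp w (f := fun w => (P, w)) (by fun_prop)) (hd P hP) hy c
  obtain ⟨K0, h0⟩ := bd (s1 + 2)
  obtain ⟨Λ, h1, h2⟩ := rep hK Ac_cpt hs hd
  have wi : Wo ⊆ interior Ac := interior_maximal Wo_sub Wo_open
  have z0 : (0 : X3) ∈ Ac := Wo_sub ⟨by simp, by simp⟩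
  refine ⟨T0, K0, Λ, fun P hP => ?_, fun r hr => (bd (s1 + 2 * r)).imp fun K2 c P hP => ?_,
    fun n L => (h2 n L).imp fun B c => ⟨c.1, fun P hP z hz => c.2 P hP z (wi hz)⟩⟩
  · have e := fun (z : R4) (hz : z.2 ∈ Wo) => (h1 P hP z (Wo_sub hz)).1
    have e' : ∀ z : R4, z.2 ∈ Wo → GG Ψ s1 r1 T0 (P, (Λ P z).1, z.2) = z.1 := fun z hz => by
      rw [← (e z hz).1]; exact (e z hz).2.1
    refine ⟨fun z hz => ?_, fun z hz c => (e z hz).2.2 _ rfl ((GG_in c).trans (by ring)),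
      fun z hz c => by_contra fun c' => ?_, fun z hz c => ?_, fun x hx s s' c =>
      by_contra fun c' => ?_, fun z hz z' hz' c => ?_⟩
    · have s := (h1 P hP z (Wo_sub hz)).2 (wi hz)
      have m : (Λ P z).2 ∈ Ac := (e z hz).1.symm ▸ Wo_sub hz
      have d := s.diff.hasFDerivAt
      have d2 := DFunLike.congr_fun (d.snd.unique (hasFDerivAt_snd.congr_of_eventuallyEq
        ((Wo_ev hz).mono fun y hy => (e y hy).1))) e0
      have d1 := DFunLike.congr_fun ((HasFDerivAt.comp z (((hs P hP _ m).comp _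
        (f := fun w => (P, w)) (by fun_prop)).differentiableAt (by simp)).hasFDerivAt d).unique
        (hasFDerivAt_fst.congr_of_eventuallyEq ((Wo_ev hz).mono fun y hy => (e y hy).2.1))) e0
      have a : fderiv ℝ (Λ P) z e0 = (fderiv ℝ (Λ P) z e0).1 • e0 :=
        Prod.ext (by simp [e0]) (d2.trans (by simp [e0]))
      refine ⟨s, (e z hz).1, _, ?_, a⟩
      rw [ContinuousLinearMap.comp_apply, a, map_smul] at d1
      exact (mul_pos_iff_of_pos_right (one_half_pos.trans_le (hd P hP _ m))).1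
        (one_pos.trans_eq d1.symm)
    · linarith [gr P hP (Wo_sub hz) (not_le.1 c').le, e' z hz,
        (abs_le.1 (h0 P hP _ (Wo_sub hz))).2, not_le.1 c']
    · exact (GG_out (h P hP) ((e z hz).1.symm ▸ hz.2.le) c).symm.trans (e z hz).2.1
    · have c2 : (Λ P (s', x)).1 < (Λ P (s, x)).1 := not_le.1 c'
      linarith [gr P hP (Wo_sub hx) c2.le, e' (s, x) hx, e' (s', x) hx]
    · exact Prod.ext (by rw [← (e z hz).2.1, c, (e z' hz').2.1])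
        (by rw [← (e z hz).1, c, (e z' hz').1])
  · rw [← GG_out (h P hP) (by simp) (by simp only; linarith)]
    exact ⟨by linarith [gr P hP z0 (show s1 + 2 ≤ s1 + 2 * r by linarith),
      (abs_le.1 (h0 P hP _ z0)).1], (abs_le.1 (c P hP _ z0)).2⟩

/-- The chart. -/
def Tc (c φ τ : ℝ) (ψ Λ : R4 → R4) (y : R4) : R4 := sh c φ (ψ (Λ (y - (τ, 0))))

theorem jd_sub {E : Type} [NormedAddCommGroup E] [NormedSpace ℝ E] {f : R4 → E} {n : ℕ} {z a : R4}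
    {B : ℝ} (h : JD n f (z - a) B) : JD n (fun y => f (y - a)) z B :=
  ⟨h.sm.comp (f := fun y => y - a) (.of (by fun_prop)), fun i m m' =>
    by rw [iteratedFDeriv_comp_sub]; exact h.le i m m'⟩

theorem th_bd (n : ℕ) {B1 B2 : ℝ} (b1 : 1 ≤ B1) (b2 : 1 ≤ B2) : ∃ B ≥ 1, B1 ≤ B ∧
    ∀ c φ τ (ψ Λ : R4 → R4) (z w : R4), w = Λ (z - (τ, 0)) → JB n ψ w B1 →
      (∀ v, ‖v‖ ≤ B1 * ‖fderiv ℝ ψ w v‖) → (fderiv ℝ ψ w e0).1 ≤ -B1⁻¹ →
      JD n Λ (z - (τ, 0)) B2 → (∀ v, ‖v‖ ≤ B2 * ‖fderiv ℝ Λ (z - (τ, 0)) v‖) →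
      (∃ α > (0 : ℝ), fderiv ℝ Λ (z - (τ, 0)) e0 = α • e0) →
      JD n (Tc c φ τ ψ Λ) z B ∧ (∀ v, ‖v‖ ≤ B * ‖fderiv ℝ (Tc c φ τ ψ Λ) z v‖) ∧
        (fderiv ℝ (Tc c φ τ ψ Λ) z e0).1 ≤ -B⁻¹ := by
  have p1 : 0 ≤ 2 * (n.factorial * B1 * B2 ^ n) := by positivity
  have p2 : B1 ≤ B2 * B1 := le_mul_of_one_le_left (by linarith) b2
  refine ⟨2 * (n.factorial * B1 * B2 ^ n) + 2 * (B2 * B1), by linarith, by linarith, ?_⟩
  rintro c φ τ ψ Λ z - rfl h1 l1 d1 h2 l2 ⟨α, α0, d2⟩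
  have j := jd_sub (h1.jd.comp h2 b2 (by linarith))
  have D : fderiv ℝ (Tc c φ τ ψ Λ) z = (rot φ).comp ((fderiv ℝ ψ (Λ (z - (τ, 0)))).comp
      (fderiv ℝ Λ (z - (τ, 0)))) :=
    (((sh_fd c φ _).comp _ (h1.sm.diff.hasFDerivAt.comp _ h2.sm.diff.hasFDerivAt)).comp z
      ((hasFDerivAt_id z).sub_const (τ, 0))).fderiv
  refine ⟨.of_sub (c, 0) (((j.clm (rot φ)).mono ?_).congr (.of_forall fun y => ?_)), fun v => ?_,
    ?_⟩
  · linarith [mul_le_mul_of_nonneg_right (rot_norm φ) (show 0 ≤ n.factorial * B1 * B2 ^ n by positivity)]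
  · simp [Tc, sh_eq]
  · have r : ∀ u, ‖u‖ ≤ 2 * ‖rot φ u‖ := fun u => le_of_eq_of_le
      (by rw [rot_ap, rot_ap, sh_sh, add_zero, neg_add_cancel, sh_zero, id])
      ((rot (-φ)).le_of_opNorm_le (rot_norm _) (rot φ u))
    rw [D]
    refine (l2 v).trans ((mul_le_mul_of_nonneg_left ((l1 _).trans (mul_le_mul_of_nonneg_left
      (r _) (by linarith))) (by linarith)).trans ?_)
    exact le_of_eq_of_le (by simp only [ContinuousLinearMap.comp_apply]; ring)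
      (mul_le_mul_of_nonneg_right (le_add_of_nonneg_left p1) (norm_nonneg _))
  · have a := l2 e0
    rw [d2, norm_smul, show ‖e0‖ = 1 by simp [e0, Prod.norm_def], mul_one,
      Real.norm_of_nonneg α0.le] at a
    rw [D]
    simp only [ContinuousLinearMap.comp_apply, d2, map_smul, rot_ap, sh, add_zero, Prod.smul_fst,
      smul_eq_mul]
    have i : (2 * (n.factorial * B1 * B2 ^ n) + 2 * (B2 * B1))⁻¹ ≤ α * B1⁻¹ :=
      (inv_anti₀ (by positivity) (show B2 * B1 ≤ _ by linarith)).trans (by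
        rw [mul_inv, mul_comm]
        exact mul_comm α _ ▸ mul_le_mul_of_nonneg_left
          (by rw [inv_le_iff_one_le_mul₀' (by linarith)]; exact a) (by positivity))
    nlinarith

end Vale.Agent.P354NE
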