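import Vale.Agent.P354NE.Th
import Vale.Agent.P354LF.Cv
import Vale.Agent.P354YW.Jk

/-!
Tools for KCH: the shifted parameter, uniform bounds, the top slice, the pole, monotonicity.
-/

set_option maxSynthPendingDepth 3

open scoped ContDiff
open Set Filter Topology Function Real

noncomputable section

namespace Vale.Agent.P354NE

open Vale.Agent.P354n (R4)
open Vale.Agent.P354H (X3)
open Vale.Agent.P354I (P3 rm rp)
open Vale.Agent.P354XE (Tw Par rd xs pt)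
open Vale.Agent.P354XA (hor linL lin_eq rd_lin rd_cont xs_pt)
open Vale.Agent.P354XM (sh rd_sh inv_lin lin_inv)
open Vale.Agent.P354LF (invL invL_ap nr lin_nr)
open Vale.Agent.P354YQ (SA JB JD)
open Vale.Agent.P354YM (Jd pp)
open Vale.Agent.P354SA
open Vale.Agent.P354SM

variable {p0 : P3} {k ε1 C0 s1 r1 K0 : ℝ} {H : ℕ → P354RG.Y3 → ℝ} {b σ : Bool}
  {Ψ : P3 × ℝ → R4 → R4} {S : P354RG.Y3 → ℝ} {K : Set PP} {M a ε : ℝ} {q q' : Par}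

/-- The change of the parameter after the shift by τ. -/
structure Lt (s1 K0 τ : ℝ) (u : R4 → ℝ) (Λ : R4 → R4) : Prop where
  sa : ∀ z : R4, z.2 ∈ Wo → SA Λ z ∧ (Λ z).2 = z.2 ∧ 0 < (fderiv ℝ Λ z e0).1
  inn : ∀ z : R4, z.2 ∈ Wo → z.1 - z.2.1 - τ ≤ s1 + 1 → Λ z = (z.1 - z.2.1 - τ, z.2)
  far : ∀ z : R4, z.2 ∈ Wo → K0 + τ ≤ z.1 → s1 + 2 ≤ (Λ z).1
  out : ∀ z : R4, z.2 ∈ Wo → s1 + 2 ≤ (Λ z).1 → u (Λ z) + τ = z.1
  mono : ∀ x ∈ Wo, Monotone fun s => (Λ (s, x)).1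
  inj : InjOn Λ {z | z.2 ∈ Wo}

theorem sub_eq (z : R4) (τ : ℝ) : z - (τ, 0) = (z.1 - τ, z.2) := Prod.ext rfl (sub_zero _)

theorem Lm.sft {u : R4 → ℝ} {Λ : R4 → R4} (h : Lm s1 K0 u Λ) (τ : ℝ) :
    Lt s1 K0 τ u fun y => Λ (y - (τ, 0)) := by
  refine ⟨fun z hz => ?_, fun z hz c => ?_, fun z hz c => ?_, fun z hz c => ?_,
    fun x hx s s' c => ?_, fun z hz z' hz' e => sub_left_injective (h.inj ?_ ?_ e)⟩
  · obtain ⟨a1, a2, α, a3, a4⟩ := h.sa (z - (τ, 0)) (by rwa [sub_eq])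
    exact ⟨a1.comp (f := fun y => y - (τ, 0)) (.of (by fun_prop)), a2.trans (sub_zero _), by
      rw [fderiv_comp_sub, a4]; simpa [e0] using a3⟩
  · rw [sub_eq, h.inn (z.1 - τ, z.2) hz (by linarith), sub_right_comm]
  · rw [sub_eq]; exact h.far (z.1 - τ, z.2) hz (by linarith)
  · rw [sub_eq] at c ⊢
    rw [h.out (z.1 - τ, z.2) hz c, sub_add_cancel]
  · simp only [sub_eq]; exact h.mono x hx (by linarith)
  · simp only [sub_eq]; exact hz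
  · simp only [sub_eq]; exact hz'

/-- Uniform bounds for the chart. -/
theorem all_bd (hK : IsCompact K) (h : ∀ P ∈ K, Ok p0 k ε1 C0 s1 r1 H b σ Ψ S P)
    {u : PP → R4 → ℝ} {Λ : PP → R4 → R4} (hL : ∀ P ∈ K, Lm s1 K0 (u P) (Λ P))
    (hB : ∀ (n : ℕ) (L : ℝ), ∃ B ≥ 1, ∀ P ∈ K, ∀ z : R4, z.2 ∈ Wo → |z.1| ≤ L →
      JD n (Λ P) z B ∧ |(Λ P z).1| ≤ B ∧ ∀ v, ‖v‖ ≤ B * ‖fderiv ℝ (Λ P) z v‖) (n : ℕ) (L : ℝ) :
    ∃ B ≥ 1, ∀ P ∈ K, ∀ c φ τ (z : R4), z.2 ∈ Wo → |z.1 - τ| ≤ L → ∀ Θ,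
      Θ = Tc c φ τ (Ψ P.1) (Λ P) → JD n Θ z B ∧ (∀ v, ‖v‖ ≤ B * ‖fderiv ℝ Θ z v‖) ∧
        (fderiv ℝ Θ z e0).1 ≤ -B⁻¹ ∧ B⁻¹ ≤ rd (Θ z) ∧ |(Θ z).1 - c| ≤ B := by
  obtain ⟨B2, b2, h2⟩ := hB n L
  obtain ⟨B1, b1, h1⟩ := psi_bd (hK.image continuous_fst)
    (forall_mem_image.2 fun P hP => (h P hP).1) n B2
  obtain ⟨B, b0, b3, h3⟩ := th_bd n b1 b2
  refine ⟨B, b0, ?_⟩
  rintro P hP c φ τ z hz hl - rfl
  have m : (z - (τ, 0)).2 ∈ Wo := by rwa [sub_eq]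
  obtain ⟨a1, a2, a3⟩ := h2 P hP _ m hl
  obtain ⟨-, a4, a5⟩ := (hL P hP).sa _ m
  obtain ⟨c1, c2, c3, c4⟩ := h1 _ ⟨P, hP, rfl⟩ _ a2 (a4.symm ▸ m)
  obtain ⟨d1, d2, d3⟩ := h3 c φ τ _ _ z _ rfl c1 c2 c3 a1 a3 a5
  refine ⟨d1, d2, d3, ((inv_anti₀ (by linarith) b3).trans c4).trans_eq (rd_sh _ _ _).symm, ?_⟩
  exact le_of_eq_of_le (congrArg _ (add_sub_cancel_right _ _))
    (((norm_fst_le _).trans c1.zero).trans b3)

/-- The compact set of parameters. -/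
theorem kset (h : Rf M a k ε1 C0 s1 r1 H b σ Ψ S) : ∃ η ∈ Ioc (0 : ℝ) (1 / 30), ∃ K : Set PP,
    IsCompact K ∧ (∀ P ∈ K, Ok (M, a, M) k ε1 C0 s1 r1 H b σ Ψ S P) ∧ ∀ q q' : Par, q.Near M a η →
      q'.Near M a η → ∀ s ∈ Icc (0 : ℝ) 1, ((pp M q, s), q.l / q'.l, q'.M, q'.a) ∈ K ∧
        q.l / q'.l ∈ Icc (9 / 10 : ℝ) (11 / 10) := by
  obtain ⟨hM, e1, -, -, hr, h⟩ := h
  obtain ⟨η, η0, a1, a2, a3⟩ : ∃ η > 0, η ≤ 1 / 30 ∧ η ≤ ε1 ∧ η ≤ (M - |a|) / 4 :=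
    ⟨min (1 / 30) (min ε1 ((M - |a|) / 4)), lt_min (by norm_num) (lt_min e1 (by linarith)),
      min_le_left _ _, (min_le_right _ _).trans (min_le_left _ _),
      (min_le_right _ _).trans (min_le_right _ _)⟩
  have i : ∀ {x y}, dist x M ≤ η → dist y a ≤ η → |y| < x ∧ 2 * x < r1 := fun {x y} c d => by
    obtain ⟨c1, c2⟩ := abs_le.1 c
    exact ⟨by linarith [abs_sub_abs_le_abs_sub y a, show |y - a| ≤ η from d],
      by linarith [abs_nonneg a]⟩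
  refine ⟨η, ⟨η0, a1⟩, (Metric.closedBall (M, a, M) η ×ˢ Icc 0 1) ×ˢ Icc (9 / 10) (11 / 10) ×ˢ
    Metric.closedBall (M, a) η, ((isCompact_closedBall _ _).prod isCompact_Icc).prod
    (isCompact_Icc.prod (isCompact_closedBall _ _)), fun P hP => ?_, fun q q' n n' s hs => ?_⟩
  · have c := max_le_iff.1 ((Prod.dist_eq).symm.trans_le hP.1.1)
    have d := max_le_iff.1 ((Prod.dist_eq).symm.trans_le hP.2.2)
    exact ⟨⟨h _ (Metric.closedBall_subset_closedBall a2 hP.1.1) _ hP.1.2,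
      (i c.1 (max_le_iff.1 c.2).1).1⟩, by linarith [hP.2.1.1], i d.1 d.2⟩
  · obtain ⟨l1, l2⟩ := abs_lt.1 n.2.2.1
    obtain ⟨l3, l4⟩ := abs_lt.1 n'.2.2.1
    have l : q.l / q'.l ∈ Icc (9 / 10 : ℝ) (11 / 10) :=
      ⟨(le_div_iff₀ (by linarith)).2 (by linarith), (div_le_iff₀ (by linarith)).2 (by linarith)⟩
    exact ⟨⟨⟨max_le n.1.le (max_le n.2.1.le ((dist_self M).trans_le η0.le)), hs⟩, l,
      max_le n'.1.le n'.2.1.le⟩, l⟩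

/-- The radius near the top slice. -/
theorem low_rd {j : Jd} (hj : j.Is) {t rr : ℝ} (ht : 0 ≤ t) (hr : (j.t t).Rad rr)
    (h : Ref p0 j.k ε1 C0 s1 r1 j.H b σ Ψ S (j.p0, exp (-j.k * t))) : ∃ e > 0, ∀ p ρ,
      dist p j.p0 < e → |ρ| < e → ∀ y ∈ Ac, rr < rd (Ψ (p, exp (-j.k * t)) (-2 * t - ρ, y)) := by
  obtain ⟨k0, e0, d0⟩ := hj.hG.pos0
  have key : ∀ y ∈ Ac, ∀ᶠ x : (P3 × ℝ) × X3 in 𝓝 ((j.p0, 0), y),
      rr < rd (Ψ (x.1.1, exp (-j.k * t)) (-2 * t - x.1.2, x.2)) := fun y hy => by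
    have c := (h.smooth (-2 * t - 0, y) (Ac_le hy)).continuousAt.comp (x := ((j.p0, 0), y))
      (f := fun x : (P3 × ℝ) × X3 => ((x.1.1, exp (-j.k * t)), -2 * t - x.1.2, x.2)) (by fun_prop)
    refine (rd_cont.continuousAt.comp c).eventually (lt_mem_nhds ?_)
    have n : P354J.Phi σ (y.1 - t, y.2) ≠ 0 :=
      smul_ne_zero (exp_pos _).ne' (ne_zero_of_mem_unit_sphere _)
    have e : ∀ Y ≠ 0, rr < rd (P354YJ.Js j.k j.H b j.p0 t Y) := fun Y hY => by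
      have J := (P354YW.jk _ _ _ _ _ _ hj.hG hj.hH _ (Metric.mem_ball_self e0) (pt t Y)
        (by rwa [xs_pt]) ((exp_le_one_iff.2 (by nlinarith [show (pt t Y).1 = t from rfl])).trans_lt
          (by linarith))).1
      exact (hr Y hY).trans_eq ((J true).2.1.trans (J b).2.1.symm)
    have u := h.top t rfl (y.1 - t, y.2)
    simp only [sub_add_cancel, Prod.mk.eta] at u
    simp only [comp_apply, sub_zero, u, tp]
    cases b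
    · exact e _ (smul_ne_zero (inv_ne_zero (pow_ne_zero _ (norm_ne_zero_iff.2 n))) n)
    · exact e _ n
  obtain ⟨e, e0, he⟩ := Metric.eventually_nhds_iff.1 (Ac_cpt.eventually_forall_of_forall_eventually
    (P := fun (x : P3 × ℝ) y => rr < rd (Ψ (x.1, exp (-j.k * t)) (-2 * t - x.2, y))) key)
  exact ⟨e, e0, fun p ρ c d => he (y := (p, ρ)) (max_lt c (by rwa [Real.dist_eq, sub_zero]))⟩

theorem rd_inv (h : q.Near M a ε) (he : ε ≤ 1 / 2) (p : R4) : rd (P354YM.inv q p) = rd p := by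
  rw [← rd_lin h.2.2.2.1, lin_inv h.2.2.2.1 (by linarith [(nr h he).1])]

theorem zq_jd (h : q.Near M a ε) (h' : q'.Near M a ε) (he : ε ≤ 1 / 2) {Θ : R4 → R4} {n : ℕ}
    {z z' : R4} {B C T : ℝ} (hΘ : JD n Θ z B) (b1 : 1 ≤ B) (c0 : 0 ≤ C)
    (e : q.lin (Θ z) = Tq q' σ T z')
    (hF : JD n (fun x => (rd x, et q'.M q'.a σ x)) (Th q'.M q'.a σ T z') C) :
    JD n (fun z => Zq q q' σ (Θ z)) z (n.factorial * C * (12 * B) ^ n) := by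
  obtain ⟨-, -, a1, -, -⟩ := nr h he
  obtain ⟨a2, -, -, -, a3⟩ := nr h' he
  have j := ((hΘ.clm (linL q)).clm (invL q')).mono (D := 12 * B) ((mul_le_mul a3
    (mul_le_mul_of_nonneg_right a1 (by linarith)) (by positivity) (by norm_num)).trans_eq (by ring))
  rw [← inv_lin h'.2.2.2.1 (by linarith) (Th _ _ _ _ _), ← invL_ap,
    show q'.lin _ = linL q (Θ z) from e.symm] at hF
  refine (JD.comp (f := fun w => invL q' (linL q (Θ w))) hF j (by linarith) c0).congr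
    (.of_forall fun y => ?_)
  exact Prod.ext (by simp only [invL_ap, rd_inv h' he]; exact (rd_lin h.2.2.2.1 _).symm)
    (by simp only [invL_ap]; rfl)

theorem pole_pos (h : q.Near M a ε) (he : 3 * ε < C0⁻¹) {p : R4} (r0 : 0 < rd p)
    (hp : C0⁻¹ ≤ P354E.sg σ * P354RG.zh (xs p)) (c φ : ℝ) :
    0 < P354E.sg σ * (q.lin (sh c φ p)).2.2.2 := by
  have a := (linL q - 1).le_of_opNorm_le_of_le (lin_nr h.2.2.1.le fun i j => (h.2.2.2.2 i j).le)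
    (P354XA.norm_le (0, (sh c φ p).2))
  have d : |(q.lin (sh c φ p)).2.2.2 - p.2.2.2| ≤ 3 * ε * rd p := le_of_eq_of_le (by
    change _ = |(q.lin (0, (sh c φ p).2)).2.2.2 - p.2.2.2|
    simp only [lin_eq]) (((norm_snd_le _).trans ((norm_snd_le _).trans (norm_snd_le _))).trans
      (a.trans_eq (by rw [abs_zero, zero_add, ← rd_sh c φ p]; rfl)))
  rw [show P354RG.zh (xs p) = p.2.2.2 / rd p from rfl, ← mul_div_assoc, le_div_iff₀ r0] at hp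
  have := mul_lt_mul_of_pos_right he r0
  obtain ⟨d1, d2⟩ := abs_le.1 d
  cases σ <;> simp only [P354E.sg, cond_true, cond_false] at hp ⊢ <;> linarith

/-! ### Monotonicity -/

theorem shp_mono {C C' rc : ℝ} {g : Tw} {z : R4} (h : Shp C rc g z) (c : C ≤ C') : Shp C' rc g z :=
  ⟨h.1.mono c, fun a => (h.2.1 a).mono c, fun a b => ⟨(h.2.2 a b).1.mono c,
    (h.2.2 a b).2.trans (div_le_div_of_nonneg_right c (sq_nonneg _))⟩⟩

theorem ez_mono {C C' r2 s2 : ℝ} {Y : R4 → E5} (h : Ez C r2 s2 Y) (c0 : 1 ≤ C) (c : C ≤ C') :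
    Ez C' r2 s2 Y := fun z hz =>
  have i := inv_anti₀ (one_pos.trans_le c0) c
  have m : ∀ {x y : ℝ}, 0 ≤ y → x ≤ C * y → x ≤ C' * y := fun p e =>
    e.trans (mul_le_mul_of_nonneg_right c p)
  let ⟨a1, a2, a3, a4, a5, a6, a7, a8, a9⟩ := h z hz
  ⟨a1, a2, ⟨i.trans a3.1, a3.2.trans c⟩, a4.trans c, a5.trans c, fun y => m (norm_nonneg _) (a6 y),
    a7.mono c, fun e => i.trans (a8 e), fun y e => m (norm_nonneg _) (a9 y e)⟩

theorem kc_mono {n : ℕ} {C1 C2 B r0 C1' C2' B' r0' rr r2 s2 sc ρ ρ' T R : ℝ} {J : X3 → R4}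
    {Θ : R4 → R4} {Y : R4 → E5} (h : Kc n C1 C2 B r0 rr r2 s2 sc ρ T R q q' σ J Θ Y) (c0 : 1 ≤ C1)
    (b0 : 1 ≤ B) (c1 : C1 ≤ C1') (c2 : C2 ≤ C2') (c : B ≤ B') (c3 : r0 ≤ r0') (c4 : ρ' ≤ ρ) :
    Kc n C1' C2' B' r0' rr r2 s2 sc ρ' T R q q' σ J Θ Y := by
  have i := inv_anti₀ (one_pos.trans_le b0) c
  have s : Ub ρ' s2 ⊆ Ub ρ s2 := fun z k => ⟨k.1, k.2.1, by linarith [k.2.2.1], k.2.2.2⟩
  obtain ⟨⟨p1, p2, p3, p4⟩, hi, hp, hm, he⟩ := h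
  refine ⟨⟨p1, ⟨p2.1, p2.2.trans c⟩, p3.trans c, p4.trans c2⟩, hi.mono s, fun z hz => ?_,
    fun z hz g e => ?_, ez_mono he c0 c1⟩
  · obtain ⟨a1, a2, a3, a4, a5, a6, a7, a8, a9⟩ := hp z (s hz)
    exact ⟨a1.mono c, fun v => (a2 v).trans (mul_le_mul_of_nonneg_right c (norm_nonneg _)),
      ⟨a3.1, by linarith [a3.2]⟩, a4, by linarith, a6, fun k => a7 (c3.trans k), a8,
      fun k => ⟨(a9 k).1, (a9 k).2.1.mono c2, (a9 k).2.2.mono c⟩⟩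
  · obtain ⟨a1, a2, a3, a4, a5, a6⟩ := hm z (s hz) g e
    exact ⟨a1, i.trans a2, i.trans a3, i.trans a4, a5, fun k => shp_mono (a6 k) c2⟩

end Vale.Agent.P354NE
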